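import Mathlib

namespace Vale.Agent.Lib.P047.H68

open Finset

private lemma sum_units_eq (k : ℕ) (y : Fin k → ℤˣ) :
    ∑ i, ((y i : ℤ) : ℝ)
      = 2 * (((univ : Finset (Fin k)).filter (fun i => y i = 1)).card : ℝ) - (k : ℝ) := by
  classical
  have h : ∀ i, ((y i : ℤ) : ℝ) = (if y i = 1 then (2 : ℝ) else 0) - 1 := by
    intro i
    rcases Int.units_eq_one_or (y i) with h | h
    · rw [h]
      norm_num
    · have hne : ¬ ((-1 : ℤˣ) = 1) := by decide
      rw [h, if_neg hne]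
      norm_num
  have h2 : ∑ i : Fin k, (if y i = 1 then (2 : ℝ) else 0)
      = 2 * (((univ : Finset (Fin k)).filter (fun i => y i = 1)).card : ℝ) := by
    rw [← Finset.sum_filter, Finset.sum_const, nsmul_eq_mul, mul_comm]
  calc ∑ i, ((y i : ℤ) : ℝ) = ∑ i : Fin k, ((if y i = 1 then (2 : ℝ) else 0) - 1) :=
        Finset.sum_congr rfl (fun i _ => h i)
    _ = 2 * (((univ : Finset (Fin k)).filter (fun i => y i = 1)).card : ℝ) - (k : ℝ) := by
        rw [Finset.sum_sub_distrib, h2]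
        simp

theorem cube_abs_sum_eq (k : ℕ) :
    ∑ y : Fin k → ℤˣ, |∑ i, ((y i : ℤ) : ℝ)|
      = ∑ P ∈ Finset.range (k + 1), (k.choose P : ℝ) * |2 * (P : ℝ) - (k : ℝ)| := by
  classical
  have h1 : ∑ y : Fin k → ℤˣ, |∑ i, ((y i : ℤ) : ℝ)|
      = ∑ S : Finset (Fin k), |2 * (S.card : ℝ) - (k : ℝ)| := by
    refine Fintype.sum_bijective
      (fun y : Fin k → ℤˣ => (univ : Finset (Fin k)).filter (fun i => y i = 1)) ?_ _ _ ?_
    · refine Function.bijective_iff_has_inverse.mpr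
        ⟨fun S i => if i ∈ S then 1 else -1, ?_, ?_⟩
      · intro y
        funext i
        rcases Int.units_eq_one_or (y i) with h | h
        · simp [h]
        · have hne : ¬ ((-1 : ℤˣ) = 1) := by decide
          simp [h, hne]
      · intro S
        ext i
        have hne : ¬ ((-1 : ℤˣ) = 1) := by decide
        by_cases hi : i ∈ S
        · simp [hi]
        · simp [hi, hne]
    · intro y
      rw [sum_units_eq]
  rw [h1]
  have h2 := Finset.sum_powerset_apply_card (α := ℝ)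
    (fun m : ℕ => |2 * (m : ℝ) - (k : ℝ)|) (x := (univ : Finset (Fin k)))
  rw [Finset.powerset_univ, Finset.card_univ, Fintype.card_fin] at h2
  rw [h2]
  refine Finset.sum_congr rfl (fun P _ => ?_)
  rw [nsmul_eq_mul]

end Vale.Agent.Lib.P047.H68

namespace Vale.Agent.Lib.P047.H68.Check

example : ∀ (k : ℕ),
    ∑ y : Fin k → ℤˣ, |∑ i, ((y i : ℤ) : ℝ)|
      = ∑ P ∈ Finset.range (k + 1), (k.choose P : ℝ) * |2 * (P : ℝ) - (k : ℝ)| :=
  Vale.Agent.Lib.P047.H68.cube_abs_sum_eq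

end Vale.Agent.Lib.P047.H68.Check
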