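import Mathlib

namespace Vale.Agent.Lib.P047.H68

open Finset Polynomial

/-- STEP B: binomial Jensen. -/
theorem binomial_jensen (m : ℕ) (y : ℝ) :
    (2 : ℝ) ^ m * |y|
      ≤ ∑ r ∈ range (m + 1), (m.choose r : ℝ) * |y + 2 * (r : ℝ) - (m : ℝ)| := by
  have hsum : ∑ r ∈ range (m + 1), (m.choose r : ℝ) = (2 : ℝ) ^ m := by
    have := Nat.sum_range_choose m
    exact_mod_cast this
  have hzero : ∑ r ∈ range (m + 1), (m.choose r : ℝ) * (2 * (r : ℝ) - (m : ℝ)) = 0 := by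
    have hrefl := Finset.sum_range_reflect
      (fun r => (m.choose r : ℝ) * (2 * (r : ℝ) - (m : ℝ))) (m + 1)
    have hneg : ∑ j ∈ range (m + 1),
        (m.choose (m + 1 - 1 - j) : ℝ) * (2 * ((m + 1 - 1 - j : ℕ) : ℝ) - (m : ℝ))
        = - ∑ r ∈ range (m + 1), (m.choose r : ℝ) * (2 * (r : ℝ) - (m : ℝ)) := by
      rw [← Finset.sum_neg_distrib]
      refine Finset.sum_congr rfl (fun j hj => ?_)
      have hj' : j ≤ m := Nat.lt_succ_iff.mp (Finset.mem_range.mp hj)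
      have h1 : m + 1 - 1 - j = m - j := by omega
      rw [h1, Nat.choose_symm hj', Nat.cast_sub hj']
      ring
    linarith
  have hcomb : (2 : ℝ) ^ m * y
      = ∑ r ∈ range (m + 1), (m.choose r : ℝ) * (y + 2 * (r : ℝ) - (m : ℝ)) := by
    have : ∑ r ∈ range (m + 1), (m.choose r : ℝ) * (y + 2 * (r : ℝ) - (m : ℝ))
        = (∑ r ∈ range (m + 1), (m.choose r : ℝ)) * y
          + ∑ r ∈ range (m + 1), (m.choose r : ℝ) * (2 * (r : ℝ) - (m : ℝ)) := by
      rw [Finset.sum_mul, ← Finset.sum_add_distrib]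
      refine Finset.sum_congr rfl (fun r _ => ?_)
      ring
    rw [this, hsum, hzero, add_zero]
  calc (2 : ℝ) ^ m * |y| = |(2 : ℝ) ^ m * y| := by
        rw [abs_mul, abs_of_pos (by positivity : (0 : ℝ) < 2 ^ m)]
    _ = |∑ r ∈ range (m + 1), (m.choose r : ℝ) * (y + 2 * (r : ℝ) - (m : ℝ))| := by
        rw [hcomb]
    _ ≤ ∑ r ∈ range (m + 1), |(m.choose r : ℝ) * (y + 2 * (r : ℝ) - (m : ℝ))| :=
        Finset.abs_sum_le_sum_abs _ _
    _ = ∑ r ∈ range (m + 1), (m.choose r : ℝ) * |y + 2 * (r : ℝ) - (m : ℝ)| := by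
        refine Finset.sum_congr rfl (fun r _ => ?_)
        rw [abs_mul, abs_of_nonneg (Nat.cast_nonneg _)]

/-- STEP A: the polynomial identity gives a coefficient identity. -/
theorem coeff_identity {ι : Type*} [Fintype ι] (k : ℕ) (c p : ι → ℕ) (M : ℝ)
    (hid : ∀ a : ℝ, 0 < a →
      ∑ x, (2 : ℝ) ^ (c x) * a ^ (p x) * (a + 1) ^ (k - c x) = M * (a + 1) ^ k) (P : ℕ) :
    ∑ x, (2 : ℝ) ^ (c x) * (if p x ≤ P then ((k - c x).choose (P - p x) : ℝ) else 0)
      = M * (k.choose P : ℝ) := by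
  classical
  have hLR : (∑ x, C ((2 : ℝ) ^ (c x)) * (X ^ (p x) * (X + 1) ^ (k - c x)) : ℝ[X])
      = C M * (X + 1) ^ k := by
    apply Polynomial.eq_of_infinite_eval_eq _ _
    apply Set.Infinite.mono _ (Set.Ioi_infinite (0 : ℝ))
    intro a ha
    have h := hid a ha
    simp only [Set.mem_ofPred_eq]
    rw [Polynomial.eval_finsetSum]
    simp only [eval_mul, eval_C, eval_pow, eval_X, eval_add, eval_one]
    rw [← h]
    refine Finset.sum_congr rfl (fun x _ => by ring)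
  have hcoef := congrArg (fun q : ℝ[X] => q.coeff P) hLR
  simp only [Polynomial.finsetSum_coeff, Polynomial.coeff_C_mul, Polynomial.coeff_X_pow_mul',
    Polynomial.coeff_X_add_one_pow] at hcoef
  exact hcoef

/-- STEP C (reindexing). -/
theorem reindex (k m p : ℕ) (hpm : p + m ≤ k) :
    ∑ r ∈ range (m + 1), (m.choose r : ℝ) * |2 * ((p + r : ℕ) : ℝ) - (k : ℝ)|
      = ∑ P ∈ range (k + 1),
          (if p ≤ P then (m.choose (P - p) : ℝ) else 0) * |2 * (P : ℝ) - (k : ℝ)| := by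
  have hsub : range (p + (m + 1)) ⊆ range (k + 1) := by
    intro a ha
    rw [mem_range] at *
    omega
  rw [← Finset.sum_subset hsub]
  · have h0 : ∑ x ∈ range p,
        (if p ≤ x then (m.choose (x - p) : ℝ) else 0) * |2 * (x : ℝ) - (k : ℝ)| = 0 := by
      apply Finset.sum_eq_zero
      intro x hx
      rw [mem_range] at hx
      rw [if_neg (by omega), zero_mul]
    have hsplit := Finset.sum_range_add
      (fun x : ℕ => (if p ≤ x then (m.choose (x - p) : ℝ) else 0) * |2 * (x : ℝ) - (k : ℝ)|)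
      p (m + 1)
    beta_reduce at hsplit
    rw [hsplit, h0, zero_add]
    refine Finset.sum_congr rfl (fun r _ => ?_)
    rw [if_pos (Nat.le_add_right p r), Nat.add_sub_cancel_left]
  · intro P hP hP'
    rw [mem_range] at hP hP'
    have hlt : m < P - p := by omega
    rw [if_pos (by omega), Nat.choose_eq_zero_of_lt hlt]
    simp

theorem abstract_bound {ι : Type*} [Fintype ι] (k : ℕ) (c p : ι → ℕ) (M : ℝ)
    (hpc : ∀ x, p x ≤ c x) (hck : ∀ x, c x ≤ k)
    (hid : ∀ a : ℝ, 0 < a →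
      ∑ x, (2 : ℝ) ^ (c x) * a ^ (p x) * (a + 1) ^ (k - c x) = M * (a + 1) ^ k) :
    ∑ x, |2 * (p x : ℝ) - (c x : ℝ)|
      ≤ M * (∑ P ∈ Finset.range (k + 1), (k.choose P : ℝ) * |2 * (P : ℝ) - (k : ℝ)|) / 2 ^ k := by
  classical
  have hx : ∀ x, (2 : ℝ) ^ k * |2 * (p x : ℝ) - (c x : ℝ)|
      ≤ ∑ P ∈ range (k + 1),
          ((2 : ℝ) ^ (c x) * (if p x ≤ P then ((k - c x).choose (P - p x) : ℝ) else 0))
            * |2 * (P : ℝ) - (k : ℝ)| := by
    intro x
    have hB := binomial_jensen (k - c x) (2 * (p x : ℝ) - (c x : ℝ))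
    have hre := reindex k (k - c x) (p x) (by have := hpc x; have := hck x; omega)
    have h1 : ∑ r ∈ range (k - c x + 1), ((k - c x).choose r : ℝ)
          * |2 * (p x : ℝ) - (c x : ℝ) + 2 * (r : ℝ) - ((k - c x : ℕ) : ℝ)|
        = ∑ r ∈ range (k - c x + 1), ((k - c x).choose r : ℝ)
          * |2 * ((p x + r : ℕ) : ℝ) - (k : ℝ)| := by
      refine Finset.sum_congr rfl (fun r _ => ?_)
      congr 2
      rw [Nat.cast_sub (hck x)]
      push_cast
      ring
    rw [h1, hre] at hB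
    have h2 : (2 : ℝ) ^ k = 2 ^ (c x) * 2 ^ (k - c x) := by
      rw [← pow_add]
      congr 1
      have := hck x
      omega
    calc (2 : ℝ) ^ k * |2 * (p x : ℝ) - (c x : ℝ)|
        = 2 ^ (c x) * (2 ^ (k - c x) * |2 * (p x : ℝ) - (c x : ℝ)|) := by
          rw [h2]
          ring
      _ ≤ 2 ^ (c x) * ∑ P ∈ range (k + 1),
            (if p x ≤ P then ((k - c x).choose (P - p x) : ℝ) else 0)
              * |2 * (P : ℝ) - (k : ℝ)| :=
          mul_le_mul_of_nonneg_left hB (by positivity)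
      _ = _ := by
          rw [Finset.mul_sum]
          refine Finset.sum_congr rfl (fun P _ => by ring)
  have hsum : (2 : ℝ) ^ k * ∑ x, |2 * (p x : ℝ) - (c x : ℝ)|
      ≤ M * ∑ P ∈ range (k + 1), (k.choose P : ℝ) * |2 * (P : ℝ) - (k : ℝ)| := by
    rw [Finset.mul_sum]
    calc ∑ x, (2 : ℝ) ^ k * |2 * (p x : ℝ) - (c x : ℝ)|
        ≤ ∑ x, ∑ P ∈ range (k + 1),
            ((2 : ℝ) ^ (c x) * (if p x ≤ P then ((k - c x).choose (P - p x) : ℝ) else 0))
              * |2 * (P : ℝ) - (k : ℝ)| := Finset.sum_le_sum (fun x _ => hx x)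
      _ = ∑ P ∈ range (k + 1), ∑ x,
            ((2 : ℝ) ^ (c x) * (if p x ≤ P then ((k - c x).choose (P - p x) : ℝ) else 0))
              * |2 * (P : ℝ) - (k : ℝ)| := Finset.sum_comm
      _ = ∑ P ∈ range (k + 1), (M * (k.choose P : ℝ)) * |2 * (P : ℝ) - (k : ℝ)| := by
          refine Finset.sum_congr rfl (fun P _ => ?_)
          rw [← Finset.sum_mul, coeff_identity k c p M hid P]
      _ = M * ∑ P ∈ range (k + 1), (k.choose P : ℝ) * |2 * (P : ℝ) - (k : ℝ)| := by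
          rw [Finset.mul_sum]
          refine Finset.sum_congr rfl (fun P _ => by ring)
  rw [le_div_iff₀ (by positivity : (0 : ℝ) < 2 ^ k)]
  linarith [hsum]

end Vale.Agent.Lib.P047.H68

namespace Vale.Agent.Lib.P047.H68.Check

example : ∀ {ι : Type*} [Fintype ι] (k : ℕ) (c p : ι → ℕ) (M : ℝ)
    (_ : ∀ x, p x ≤ c x) (_ : ∀ x, c x ≤ k)
    (_ : ∀ a : ℝ, 0 < a →
      ∑ x, (2 : ℝ) ^ (c x) * a ^ (p x) * (a + 1) ^ (k - c x) = M * (a + 1) ^ k),
    ∑ x, |2 * (p x : ℝ) - (c x : ℝ)|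
      ≤ M * (∑ P ∈ Finset.range (k + 1), (k.choose P : ℝ) * |2 * (P : ℝ) - (k : ℝ)|) / 2 ^ k :=
  @Vale.Agent.Lib.P047.H68.abstract_bound

end Vale.Agent.Lib.P047.H68.Check
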